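import Vale.Agent.P144Z.R3W.Wf

/-!
Block R3W: scaling of the sources.
-/

namespace Vale.Agent.P144Z

open Finset Matrix Filter Topology

set_option linter.unusedSectionVars false

namespace R3W

open RN R1

/-- The substitution that scales the sources. -/
noncomputable def sm (g : Geo) (a : ℝ) : (g.S → ℝ) →ₗ[ℝ] (g.S → ℝ) :=
  LinearMap.id + (a - 1) • res {t : g.S | ∃ k, t = Sum.inr (k, 0)}

/-- The scaling factors. -/
def scf (g : Geo) (a : ℝ) : g.S → ℝ := Sum.elim (fun _ => 1) fun k => if k.2 = 0 then a else 1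

variable {g : Geo}

theorem sm_apply (a : ℝ) (δ : g.S → ℝ) (s : g.S) : sm g a δ s = scf g a s * δ s := by
  simp only [sm, LinearMap.add_apply, LinearMap.id_apply, LinearMap.smul_apply, Pi.add_apply,
    Pi.smul_apply, res_apply, smul_eq_mul]
  rcases s with s | ⟨k, i⟩
  · simp [scf]
  · by_cases h : i = 0
    · subst h
      simp only [scf, Set.mem_ofPred_eq, Sum.elim_inr, if_true]
      rw [if_pos ⟨k, rfl⟩]; ring
    · simp [scf, h]

theorem sm_single (a : ℝ) (s : g.S) : sm g a (Pi.single s 1) = scf g a s • Pi.single s 1 := by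
  funext t
  rw [sm_apply, Pi.smul_apply, smul_eq_mul]
  by_cases h : t = s
  · rw [h]
  · rw [Pi.single_eq_of_ne h, mul_zero, mul_zero]

theorem prF_sm (a : ℝ) : prF g ∘ₗ sm g a = prF g := by
  refine LinearMap.ext fun δ => funext fun s => ?_
  rw [LinearMap.comp_apply, res_apply, res_apply, sm_apply]
  cases s <;> simp [scf]

theorem sm_prF (a : ℝ) : sm g a ∘ₗ prF g = prF g := by
  refine LinearMap.ext fun δ => funext fun s => ?_
  rw [LinearMap.comp_apply, sm_apply, res_apply]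
  cases s <;> simp [scf]

theorem sm_prB (a : ℝ) : sm g a ∘ₗ prB g = prB g ∘ₗ sm g a := by
  refine LinearMap.ext fun δ => funext fun s => ?_
  rw [LinearMap.comp_apply, LinearMap.comp_apply, sm_apply, res_apply, res_apply, sm_apply]
  cases s <;> simp

theorem val_scB (a : ℝ) (F : g.E) :
    Ev.val (g.scB a F) = ExteriorAlgebra.map (sm g a) (Ev.val F) := val_evMap _ _

theorem del_sm (a c : ℝ) (u : g.S → ℝ) (h : ∀ s, scf g a s * u s = c * u s) (F : Gr g.S) :
    del u (ExteriorAlgebra.map (sm g a) F) = c • ExteriorAlgebra.map (sm g a) (del u F) := by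
  rw [del_map (sm g a) (c • u) u (A1.mem_loc_univ F) fun s _ => by
    rw [sm_single, smul_dotProduct, single_one_dotProduct, smul_eq_mul, h]; rfl,
    A1.del_smul_left, map_smul]

theorem del_sm_ex (a : ℝ) (u : Tor g.M × Fin 4 → ℝ) (F : Gr g.S) :
    del (g.ex u) (ExteriorAlgebra.map (sm g a) F) =
      ExteriorAlgebra.map (sm g a) (del (g.ex u) F) := by
  rw [del_sm a 1 _ (fun s => by cases s <;> simp [scf, Geo.ex]), one_smul]

theorem db_sm (a : ℝ) (k : g.K) (F : Gr g.S) : g.db k (ExteriorAlgebra.map (sm g a) F) =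
    a • ExteriorAlgebra.map (sm g a) (g.db k F) := by
  have h : ∀ i s, scf g a s * sv g k i s = scf g a (Sum.inr (k, i)) * sv g k i s := fun i s => by
    by_cases e : s = Sum.inr (k, i)
    · rw [e]
    · rw [sv, Pi.single_eq_of_ne e, mul_zero, mul_zero]
  rw [db_apply, db_apply, del_sm a _ _ (h 0), map_smul, del_sm a _ _ (h 1)]
  simp [scf]

theorem noB_scB (a : ℝ) (F : g.E) : g.noB (g.scB a F) = g.noB F :=
  (evMap_evMap _ _ F).trans (congrArg (fun f => evMap f F) (prF_sm a))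

theorem scB_of_noB (a : ℝ) {F : g.E} (h : g.noB F = F) : g.scB a F = F := by
  rw [← h]
  exact (evMap_evMap _ _ F).trans (congrArg (fun f => evMap f F) (sm_prF a))

theorem Ext_scB (a : ℝ) (x : g.P) (F : g.E) : g.Ext x (g.scB a F) = g.Ext x F := by
  rw [← Geo.Ext_noB, noB_scB, Geo.Ext_noB]

theorem zt_scB (a : ℝ) (k : g.K) (F : g.E) : g.zt k (g.scB a F) = a * g.zt k F := by
  simp only [Geo.zt, Geo.cM, beta, val_scB, db_sm, map_smul, del_sm_ex, aug_map, smul_eq_mul]
  ring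

theorem evG_scB (a : ℝ) {C : Matrix (Tor g.M × Fin 4) (Tor g.M × Fin 4) ℝ} (hC : Cᵀ = -C)
    (F : g.E) : evG (g.exM C) (g.scB a F) = g.scB a (evG (g.exM C) F) := by
  apply Ev.val_injective
  rw [val_evG, val_scB, val_scB, val_evG]
  refine gauss_map (exM_anti hC) (exM_anti hC) _ (A1.mem_loc_univ _) fun s _ s' _ => ?_
  rw [sm_single, sm_single, mulVec_smul, smul_dotProduct, dotProduct_smul, single_one_dotProduct,
    mulVec_single_one]
  cases s <;> cases s' <;> simp [scf, Geo.exM]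

end R3W

namespace Geo

open R3W

variable {g : Geo}

/-- Scaling of the sources. -/
theorem scB_one (a : ℝ) : g.scB a 1 = 1 := I2.evMap_one _

theorem scB_mul (a : ℝ) (F G : g.E) : g.scB a (F * G) = g.scB a F * g.scB a G :=
  I2.evMap_mul _ F G

theorem scB_bv (a : ℝ) (k : g.K) : g.scB a (g.bv k) = a • g.bv k := by
  change evMap (sm g a) _ = _
  rw [bv, I2.evMap_pp, sm_single, sm_single, I2.pp_smul_smul]
  simp [scf]

theorem scB_noF (a : ℝ) (F : g.E) : g.scB a (g.noF F) = g.noF (g.scB a F) :=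
  (R1.evMap_evMap _ _ F).trans ((congrArg (fun f => evMap f F) (sm_prB a)).trans
    (R1.evMap_evMap _ _ F).symm)

theorem aug_scB (a : ℝ) (F : g.E) : aug (Ev.val (g.scB a F)) = aug (Ev.val F) := by
  rw [val_scB, aug_map]

theorem aug_db_scB (a : ℝ) (k : g.K) {F : g.E} (hF : F ∈ g.sub univ) :
    aug (g.db k (Ev.val (g.scB a F))) = a * aug (g.db k (Ev.val F)) := by
  have _ := hF
  rw [val_scB, db_sm, map_smul, aug_map, smul_eq_mul]

theorem scB_bE (a : ℝ) (k : g.K) : g.scB a (g.bE k) = a • g.bE k := by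
  rw [bE, scB_mul, scB_bv, scB_of_noB a (edge_bil _ _).2.1, smul_mul_assoc]

theorem scB_mem (a : ℝ) {X : Finset g.P} {F : g.E} (hF : F ∈ g.sub X) : g.scB a F ∈ g.sub X :=
  R1.diag_mem (sm_single a) hF

theorem Wf.scB {s : g.St} (hs : g.Wf s) (a : ℝ) : g.Wf (s.scB a) := by
  have hv : ∀ x, (s.scB a).v x = s.v x := fun x => scB_of_noB a (hs.vnoB x)
  refine ⟨?_, fun X => scB_mem a (hs.Kmem X), fun X => ?_, fun x => hv x ▸ hs.vmem x,
    fun x => hv x ▸ hs.vnoF x, fun x => hv x ▸ hs.vnoB x, fun x => hv x ▸ hs.vquad x⟩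
  · simp only [St.scB, hs.K0, map_zero]
  · simp only [St.scB, ← scB_noF, hs.KnoF, map_zero]

theorem Free.scB {s : g.St} (hs : g.Free s) (a : ℝ) : g.Free (s.scB a) :=
  ⟨fun X => (noB_scB a _).trans (hs.1 X), fun x => by simp only [St.scB, hs.2, map_zero]⟩

theorem scB_srcSt (a : ℝ) (z : g.K → ℝ) : (g.srcSt z).scB a = g.srcSt fun k => a * z k := by
  simp only [St.scB, srcSt, Pi.zero_apply, map_zero]
  rfl

theorem car_scB (s : g.St) (a : ℝ) (X : Finset g.P) : (s.scB a).car X = g.scB a (s.car X) := by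
  simp only [St.car, St.scB, map_add, map_sum, map_smul, scB_bE, smul_smul, mul_comm]

theorem Cl_scB {s : g.St} (hs : g.Wf s) (a : ℝ) {C : Matrix (Tor g.M × Fin 4) (Tor g.M × Fin 4) ℝ}
    (hC : Cᵀ = -C) (U : Finset g.P) :
    Cl (evG (g.exM C)) (s.scB a).H U = g.scB a (Cl (evG (g.exM C)) s.H U) := by
  have _ := hs
  rw [← Cl_map _ (g.scB a) (scB_one a) (scB_mul a) (g.scB a) (scB_one a) (scB_mul a)
    (evG_scB a hC)]
  exact Cl_congr _ fun X _ => by rw [St.H, St.H, car_scB, map_add]; rfl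

theorem rem_scB {s : g.St} (hs : g.Wf s) (a : ℝ) (ℓ ℓ' : ℕ) (U : Finset g.P) :
    g.rem ℓ ℓ' (s.scB a) U = g.scB a (g.rem ℓ ℓ' s U) := by
  simp only [rem, intg, Cl_scB hs a (cov_anti ℓ ℓ'), car_scB, map_sub, scB_noF]

theorem xtr_scB (a : ℝ) (j ℓ ℓ' : ℕ) (U : Finset g.P) (F : g.E) :
    g.xtr j ℓ ℓ' U (g.scB a F) = g.scB a (g.xtr j ℓ ℓ' U F) := by
  unfold xtr
  split_ifs <;> simp only [map_add, map_sum, map_smul, map_zero, Ext_scB, zt_scB, scB_bE,
    scB_of_noB a (noB_Ext _ _), smul_smul, mul_comm]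

theorem step_scB {s : g.St} (hs : g.Wf s) (a : ℝ) (j ℓ ℓ' : ℕ) :
    g.step j ℓ ℓ' 0 (s.scB a) = (g.step j ℓ ℓ' 0 s).scB a := by
  have h : ∀ x, g.out ℓ ℓ' (s.scB a) x = g.scB a (g.out ℓ ℓ' s x) := fun x => by
    simp only [out, rem_scB hs, map_sum, map_smul]
  simp only [Geo.step, rem_scB hs, h, xtr_scB, Ext_scB, zt_scB]
  simp only [St.scB, map_sum, map_sub, map_add, Prod.fst_zero, Prod.snd_zero, zero_smul, add_zero,
    scB_of_noB a (noB_Ext _ _), mul_add, mul_sum]

end Geo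

end Vale.Agent.P144Z
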