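import Vale.Agent.P144Z.R3W.Wf
import Vale.Agent.P144Z.R5.Abs

/-!
Block R3W: the initial state and the flow.
-/

namespace Vale.Agent.P144Z

open Finset Matrix Filter Topology

set_option linter.unusedSectionVars false

namespace R3W

open R5

theorem mem_hull {B : Finset (ℤ × ℤ)} {a b v : ℤ × ℤ} (ha : a ∈ B) (hb : b ∈ B)
    (h1 : min a.1 b.1 ≤ v.1) (h2 : v.1 ≤ max a.1 b.1 + 1) (h3 : min a.2 b.2 ≤ v.2)
    (h4 : v.2 ≤ max a.2 b.2 + 1) : v ∈ hull B :=
  mem_biUnion.2 ⟨(a, b), mem_product.2 ⟨ha, hb⟩,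
    mem_product.2 ⟨mem_Icc.2 ⟨h1, h2⟩, mem_Icc.2 ⟨h3, h4⟩⟩⟩

theorem pHV_dep {B : Finset (ℤ × ℤ)} {n n' : (ℤ × ℤ) × Fin 2 → Bool}
    (h : ∀ e : (ℤ × ℤ) × Fin 2, e.1 ∈ hull B → e.1 + uz e.2 ∈ hull B → n e = n' e)
    {a b : ℤ × ℤ} (ha : a ∈ B) (hb : b ∈ B) : pHV n a b = pHV n' a b := by
  unfold pHV bond
  congr 1 <;> refine prod_congr rfl fun i hi => congrArg sgn (h _ ?_ ?_) <;>
    obtain ⟨h1, h2⟩ := mem_Ico.1 hi <;> refine mem_hull ha hb ?_ ?_ ?_ ?_ <;>
    simp only [uz, Prod.fst_add, Prod.snd_add, if_true, one_ne_zero, if_false] <;> omega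

theorem spinFn_dep {B : Finset (ℤ × ℤ)} {n n' : (ℤ × ℤ) × Fin 2 → Bool}
    (h : ∀ e : (ℤ × ℤ) × Fin 2, e.1 ∈ hull B → e.1 + uz e.2 ∈ hull B → n e = n' e) :
    spinFn B n = spinFn B n' := by
  unfold spinFn
  congr 1
  refine sum_congr rfl fun a ha => ?_
  rw [prod_congr rfl fun b hb => pHV_dep h ha hb, prod_congr rfl fun b hb => pHV_dep h hb ha]

theorem Ex_mem {ι A : Type} [Fintype ι] [DecidableEq ι] [CommRing A] [Algebra ℝ A]
    (R : Subalgebra ℝ A) (a : ι → A) (T : Finset ι) (ha : ∀ e ∈ T, a e ∈ R) {F : (ι → Bool) → A}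
    (hF : Dep T F) (hm : ∀ n, F n ∈ R) : Ex a F ∈ R := by
  induction T using Finset.induction_on generalizing F with
  | empty =>
    have h1 : F = fun _ => F fun _ => true := funext fun n => hF _ _ (by simp)
    rw [h1, Ex_const]
    exact hm _
  | insert e T he ih =>
    have h0 := ha e (mem_insert_self e T)
    rw [Ex_split a F e]
    exact add_mem
      (mul_mem h0 (ih (fun j hj => ha j (mem_insert_of_mem hj)) (hF.update true) fun n => hm _))
      (mul_mem (sub_mem (one_mem _) h0)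
        (ih (fun j hj => ha j (mem_insert_of_mem hj)) (hF.update false) fun n => hm _))

variable {g : Geo}

/-- The edges with both ends in `X`. -/
def edges (g : Geo) (X : Finset g.P) : Finset (Tor g.M × Fin 2) :=
  univ.filter fun e => e.1 ∈ X ∧ e.1 + uv g.M e.2 ∈ X

/-- The local functions of the contours. -/
def fsub (g : Geo) (X : Finset g.P) : Subalgebra ℝ (g.Cfg → g.E) where
  carrier := {F | Dep (edges g X) F ∧ ∀ n, F n ∈ g.sub X}
  mul_mem' hF hG := ⟨fun n n' h => by rw [Pi.mul_apply, Pi.mul_apply, hF.1 n n' h, hG.1 n n' h],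
    fun n => mul_mem (hF.2 n) (hG.2 n)⟩
  add_mem' hF hG := ⟨fun n n' h => by rw [Pi.add_apply, Pi.add_apply, hF.1 n n' h, hG.1 n n' h],
    fun n => add_mem (hF.2 n) (hG.2 n)⟩
  algebraMap_mem' r := ⟨fun _ _ _ => rfl, fun _ => (g.sub X).algebraMap_mem r⟩

theorem fsub_mono {X Y : Finset g.P} (h : X ⊆ Y) : fsub g X ≤ fsub g Y := fun _ hF =>
  ⟨hF.1.mono fun _ he => mem_filter.2 ⟨mem_univ _, h (mem_filter.1 he).2.1,
    h (mem_filter.1 he).2.2⟩, fun n => Geo.sub_mono h (hF.2 n)⟩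

theorem E0_eq (w : ℝ) (F : g.Cfg → g.E) :
    g.E0 w F = Ex (fun e : Tor g.M × Fin 2 => w • g.edge e.1 e.2) F := by
  unfold Ex
  rfl

theorem E0_mem (w : ℝ) {X : Finset g.P} {F : g.Cfg → g.E} (hF : F ∈ fsub g X) :
    g.E0 w F ∈ g.sub X := by
  rw [E0_eq]
  exact Ex_mem (g.sub X) _ (edges g X) (fun _ he =>
    Subalgebra.smul_mem _ (Geo.edge_mem _ _ (mem_filter.1 he).2.1 (mem_filter.1 he).2.2) _)
    hF.1 hF.2

theorem E0_one (w : ℝ) : g.E0 w 1 = 1 := by
  rw [E0_eq]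
  exact Ex_const _ 1

theorem prj_uz (i : Fin 2) : prj g.M (uz i) = uv g.M i := (G.uv_eq i).symm

theorem mem_put (y : g.P) {Y : Finset (ℤ × ℤ)} {v : ℤ × ℤ} (h : v ∈ Y) :
    y + prj g.M v ∈ g.put y Y := mem_image_of_mem _ h

theorem self_mem_put (y : g.P) {Y : Finset (ℤ × ℤ)} (h : (0, 0) ∈ Y) : y ∈ g.put y Y := by
  have h1 := mem_put y h
  rwa [show prj g.M (0, 0) = 0 from G.prj_zero, add_zero] at h1

theorem see_dep {y : g.P} {Y : Finset (ℤ × ℤ)} {n n' : g.Cfg}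
    (h : ∀ e ∈ edges g (g.put y Y), n e = n' e) (e : (ℤ × ℤ) × Fin 2) (h1 : e.1 ∈ Y)
    (h2 : e.1 + uz e.2 ∈ Y) : g.see y n e = g.see y n' e := by
  refine h _ (mem_filter.2 ⟨mem_univ _, mem_put y h1, ?_⟩)
  have h3 := mem_put y h2
  rwa [G.prj_add, prj_uz, ← add_assoc] at h3

theorem Hin_mem (hg : g.Ok) (q : Par) (X : Finset g.P) : g.Hin q X ∈ fsub g X := by
  refine ⟨fun n n' h => ?_, fun n => add_mem (Subalgebra.smul_mem _ (one_mem _) _)
    (Subalgebra.sum_mem _ fun k hk => Subalgebra.smul_mem _ (Geo.bv_mem ?_) _)⟩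
  · unfold Geo.Hin
    congr 1
    · congr 1
      refine sum_congr rfl fun y _ => sum_congr rfl fun B hB => ?_
      rw [spinFn_dep (see_dep ((mem_filter.1 hB).2 ▸ h))]
    · refine sum_congr rfl fun k hk => ?_
      rw [(hg.src k).dep _ _ (see_dep ((mem_filter.1 hk).2 ▸ h))]
  · exact (mem_filter.1 hk).2 ▸ self_mem_put _ (hg.src k).zero

theorem put_ne (hg : g.Ok) (k : g.K) : g.put (g.src k).y (g.src k).Y ≠ ∅ :=
  ne_empty_of_mem (self_mem_put _ (hg.src k).zero)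

theorem Hin_empty (hg : g.Ok) (q : Par) : g.Hin q ∅ = 0 := by
  funext n
  rw [Geo.Hin, filter_eq_empty_iff.2 fun k _ => put_ne hg k, sum_empty, add_zero,
    sum_eq_zero fun y _ => sum_eq_zero fun B hB => ?_, zero_smul, Pi.zero_apply]
  have h0 : (0, 0) ∈ B := (mem_filter.1 (mem_filter.1 hB).1).2
  exact absurd (mem_filter.1 hB).2 (ne_empty_of_mem (self_mem_put y
    (mem_hull h0 h0 (by simp) (by simp) (by simp) (by simp))))

theorem W0_empty (hg : g.Ok) (q : Par) : g.W0 q ∅ = 0 :=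
  Cl_eq_zero _ (E0_one _) fun X hX => by rw [subset_empty.1 hX, Hin_empty hg]

theorem z0_bE_mem (hg : g.Ok) (q : Par) (k : g.K) :
    g.z0 q k • g.bE k ∈ g.sub (g.put (g.src k).y (g.src k).Y) := by
  unfold Geo.z0
  split_ifs with h
  · have h0 := self_mem_put (g.src k).y (hg.src k).zero
    refine Subalgebra.smul_mem _ (mul_mem (Geo.bv_mem h0) (Geo.edge_mem _ _ h0 ?_)) _
    rw [← prj_uz]
    exact mem_put _ (by rw [((hg.src k).en h).1]; simp)
  · rw [zero_smul]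
    exact zero_mem _

theorem init_v_bil (q : Par) (x : g.P) : (g.init q).v x ∈ bil g :=
  add_mem (Submodule.smul_mem _ _ (O1_bil x)) (Submodule.smul_mem _ _ (O2_bil x))

theorem noB_E0 (w : ℝ) (F : g.Cfg → g.E) :
    g.E0 w (g.noB.compLeft g.Cfg F) = g.noB (g.E0 w F) := by
  have h1 : ∀ n : g.Cfg, g.noB (∏ e : Tor g.M × Fin 2,
      if n e then w • g.edge e.1 e.2 else 1 - w • g.edge e.1 e.2) = ∏ e : Tor g.M × Fin 2,
      if n e then w • g.edge e.1 e.2 else 1 - w • g.edge e.1 e.2 := fun n => by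
    refine (I2.evMap_prod _ _ _).trans (prod_congr rfl fun e _ => ?_)
    change g.noB _ = _
    split_ifs
    · rw [map_smul, (edge_bil _ _).2.1]
    · rw [map_sub, map_smul, (edge_bil _ _).2.1, Geo.noB_one]
  change ∑ n : g.Cfg, _ = g.noB (∑ n : g.Cfg, _)
  rw [map_sum]
  exact sum_congr rfl fun n _ => by rw [Geo.noB_mul, h1]; rfl

theorem noB_W0 : ∀ U, g.noB (g.W0 par0 U) = 0 := fun U => by
  rw [Geo.W0, ← Cl_map _ (g.noB.compLeft g.Cfg) (funext fun _ => Geo.noB_one)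
    (fun _ _ => funext fun _ => Geo.noB_mul _ _) g.noB Geo.noB_one Geo.noB_mul (noB_E0 _)]
  refine Cl_eq_zero _ (E0_one _) fun X _ => funext fun n => ?_
  change g.noB (g.Hin par0 X n) = 0
  simp [Geo.Hin, par0, Geo.noB_bv]

end R3W

namespace Geo

open R3W

variable {g : Geo}

theorem W0_mem (hg : g.Ok) (q : Par) (U : Finset g.P) : g.W0 q U ∈ g.sub U :=
  Cl_mem_sub _ (fsub g) g.sub (fun _ _ => fsub_mono) (fun _ _ => sub_mono)
    (fun _ _ h => E0_mem _ h) fun X _ => Hin_mem hg q X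

theorem wf_init (hg : g.Ok) (q : Par) : g.Wf (g.init q) := by
  refine ⟨?_, fun X => ?_, fun X => ?_, fun x => ?_, fun x => (init_v_bil q x).1,
    fun x => (init_v_bil q x).2.1, fun x => (init_v_bil q x).2.2⟩
  · simp only [init]
    rw [W0_empty hg, map_zero, filter_eq_empty_iff.2 fun k _ => put_ne hg k, sum_empty, sub_zero,
      sub_zero]
  · exact sub_mem (sub_mem (W0_mem hg q X) (noF_mem (W0_mem hg q X)))
      (Subalgebra.sum_mem _ fun k hk => (mem_filter.1 hk).2 ▸ z0_bE_mem hg q k)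
  · simp only [init, map_sub, map_sum, map_smul, noF_noF, noF_bE, smul_zero, sum_const_zero,
      sub_self]
  · exact add_mem (Subalgebra.smul_mem _ (O1_mem x) _) (Subalgebra.smul_mem _ (O2_mem x) _)

theorem wf_flow (hg : g.Ok) (L : ℕ) (q : Par) (d : ℕ → ℝ × ℝ) (j : ℕ) :
    g.Wf (g.flow L q d j) := by
  induction j with
  | zero => exact wf_init hg q
  | succ j ih => exact ih.step _ _ _ _

theorem cs_mem (hg : g.Ok) (L : ℕ) (q : Par) (j : ℕ) (U : Finset g.P) :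
    g.cs L q j U ∈ g.sub U ∧ g.noF (g.cs L q j U) = g.cs L q j U := by
  cases j with
  | zero => exact ⟨noF_mem (W0_mem hg q U), noF_noF _⟩
  | succ j => exact ⟨noF_mem ((wf_flow hg L q 0 j).Cl_mem (cov_anti _ _) U), noF_noF _⟩

theorem free_flow (hg : g.Ok) (L j : ℕ) : g.Free (g.flow L par0 0 j) := by
  induction j with
  | zero =>
    refine ⟨fun X => ?_, fun x => ?_⟩
    · simp only [flow, init, map_sub, map_sum, map_smul, noB_bE, smul_zero, sum_const_zero,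
        sub_zero]
      rw [noB_noF, ← noF_noB, noB_W0, map_zero, sub_zero]
    · simp [flow, init, par0]
  | succ j ih => exact Free.step (wf_flow hg L par0 0 j) ih _ _ _

end Geo

end Vale.Agent.P144Z
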