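import Vale.Agent.P144Z.R1.Alg
import Vale.Agent.P144Z.R3.Main

/-!
Block R3W: well-formed states and free states.
-/

namespace Vale.Agent.P144Z

open Finset Matrix Filter Topology

set_option linter.unusedSectionVars false

namespace R3W

section gen

variable {S P 𝒜 : Type} [Fintype S] [DecidableEq S] [DecidableEq P] [NormedCommRing 𝒜]
  [NormedAlgebra ℝ 𝒜]

theorem lg_one : lg (1 : Ev S) = 0 := by
  have h := lg_exp (0 : Ev S)
  rwa [NormedSpace.exp_zero] at h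

theorem Cl_eq_zero (E : 𝒜 →ₗ[ℝ] Ev S) (h1 : E 1 = 1) {H : Finset P → 𝒜} {U : Finset P}
    (h : ∀ X ⊆ U, H X = 0) : Cl E H U = 0 := by
  refine sum_eq_zero fun U' hU' => ?_
  rw [sum_eq_zero fun X hX => h X ((mem_powerset.1 hX).trans (mem_powerset.1 hU')),
    NormedSpace.exp_zero, h1, lg_one, smul_zero]

theorem Cl_map [FiniteDimensional ℝ 𝒜] (E : 𝒜 →ₗ[ℝ] Ev S) (Φ₀ : 𝒜 →ₗ[ℝ] 𝒜) (h01 : Φ₀ 1 = 1)
    (h0m : ∀ F G, Φ₀ (F * G) = Φ₀ F * Φ₀ G) (Φ : Ev S →ₗ[ℝ] Ev S) (h1 : Φ 1 = 1)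
    (hm : ∀ F G, Φ (F * G) = Φ F * Φ G) (hE : ∀ F, E (Φ₀ F) = Φ (E F)) (H : Finset P → 𝒜)
    (U : Finset P) : Cl E (fun X => Φ₀ (H X)) U = Φ (Cl E H U) := by
  have h := Cl_hom E E Φ₀ h01 h0m Φ h1 hm id U (Set.injOn_id _) ⊤ (fun F _ => hE F) H
    (fun X => Φ₀ (H X)) (fun _ _ => Algebra.mem_top) (fun X _ => by rw [image_id])
  rwa [image_id] at h

end gen

/-- Quadratic forms in the fields. -/
def bil (g : Geo) : Submodule ℝ g.E where
  carrier := {F | g.noF F = 0 ∧ g.noB F = F ∧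
    ∀ C, Cᵀ = -C → ∃ c : ℝ, evG (g.exM C) F = F + c • 1}
  add_mem' := fun {F G} hF hG => ⟨by rw [map_add, hF.1, hG.1, add_zero],
    by rw [map_add, hF.2.1, hG.2.1], fun C hC => by
      obtain ⟨c, h⟩ := hF.2.2 C hC
      obtain ⟨c', h'⟩ := hG.2.2 C hC
      exact ⟨c + c', by rw [map_add, h, h', add_smul]; abel⟩⟩
  zero_mem' := ⟨map_zero _, map_zero _, fun C _ => ⟨0, by rw [map_zero, zero_smul, add_zero]⟩⟩
  smul_mem' := fun a F hF => ⟨by rw [map_smul, hF.1, smul_zero], by rw [map_smul, hF.2.1],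
    fun C hC => by
      obtain ⟨c, h⟩ := hF.2.2 C hC
      exact ⟨a * c, by rw [map_smul, h, smul_add, smul_smul]⟩⟩

variable {g : Geo}

theorem pp_bil (a b : Tor g.M × Fin 4 → ℝ) : pp (g.ex a) (g.ex b) ∈ bil g := by
  refine ⟨?_, ?_, fun C hC => ⟨_, evG_pp (RN.exM_anti hC) _ _⟩⟩
  · rw [Geo.noF, I2.evMap_pp, RN.prB_ex]
    exact Ev.val_injective (by rw [val_pp, A1.psi_zero, zero_mul, map_zero])
  · rw [Geo.noB, I2.evMap_pp, RN.prF_ex, RN.prF_ex]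

theorem edge_bil (x : g.P) (i : Fin 2) : g.edge x i ∈ bil g := by
  rw [Geo.edge, ← RN.ex_single, ← RN.ex_single]
  exact Submodule.smul_mem _ _ (pp_bil _ _)

theorem O1_bil (x : g.P) : g.O1 x ∈ bil g :=
  Submodule.smul_mem _ _ (Submodule.sum_mem _ fun _ _ => add_mem (edge_bil _ _) (edge_bil _ _))

theorem O2_bil (x : g.P) : g.O2 x ∈ bil g := by
  refine add_mem (Submodule.sum_mem _ fun a _ => Submodule.sum_mem _ fun b _ => ?_)
    (Submodule.smul_mem _ _ (O1_bil x))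
  split_ifs
  · rw [← RN.ex_single, ← RN.ex_single]
    exact pp_bil _ _
  · exact zero_mem _

theorem Ext_bil (x : g.P) (F : g.E) : g.Ext x F ∈ bil g :=
  add_mem (add_mem (Submodule.smul_mem _ _ (O1_bil x)) (Submodule.smul_mem _ _ (O2_bil x)))
    (Submodule.sum_mem _ fun _ _ => Submodule.sum_mem _ fun _ _ => Submodule.sum_mem _ fun _ _ =>
      Submodule.smul_mem _ _ (pp_bil _ _))

theorem v_bil {s : g.St} (hs : g.Wf s) (x : g.P) : s.v x ∈ bil g :=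
  ⟨hs.vnoF x, hs.vnoB x, hs.vquad x⟩

theorem Ext_zero (x : g.P) : g.Ext x 0 = 0 := by
  have h := Geo.Ext_smul x 0 (0 : g.E)
  rwa [zero_smul, zero_smul] at h

theorem zt_zero (k : g.K) : g.zt k 0 = 0 := by
  have h := Geo.zt_smul k 0 (0 : g.E)
  rwa [zero_smul, zero_mul] at h

theorem Ext_of_noB {F : g.E} (h : g.noB F = 0) (x : g.P) : g.Ext x F = 0 := by
  rw [← Geo.Ext_noB, h, Ext_zero]

theorem car_empty (s : g.St) : s.car ∅ = 0 := by
  have h : ∀ x : g.P, star x ≠ ∅ := fun x => ne_empty_of_mem (G.mem_star_self x)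
  rw [Geo.St.car, filter_eq_empty_iff.2 fun x _ => h x, filter_eq_empty_iff.2 fun k _ => h _,
    sum_empty, sum_empty, add_zero]

theorem subset_tgt (ℓ : ℕ) (U : Finset g.P) : U ⊆ g.tgt ℓ U := by
  unfold Geo.tgt
  split_ifs
  · exact G.subset_plus U
  · exact Subset.rfl

theorem star_subset_tgt {ℓ ℓ' : ℕ} {U : Finset g.P} (h : g.Xtr ℓ ℓ' U) {x : g.P} (hx : x ∈ U) :
    star x ⊆ g.tgt ℓ U := by
  rw [Geo.tgt, if_pos h.1]
  exact subset_biUnion_of_mem star hx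

theorem cov_anti (ℓ ℓ' : ℕ) : (covP (Dm g.A) ℓ ℓ')ᵀ = -covP (Dm g.A) ℓ ℓ' :=
  covP_anti (C.Dm_anti g.A) ℓ ℓ'

theorem xtr_mem (j ℓ ℓ' : ℕ) (U : Finset g.P) (F : g.E) :
    g.xtr j ℓ ℓ' U F ∈ g.sub (g.tgt ℓ U) := by
  classical
  refine add_mem ?_ (Subalgebra.sum_mem _ fun k hk => Subalgebra.smul_mem _ ?_ _)
  · split_ifs with h
    · exact Subalgebra.smul_mem _ (Subalgebra.sum_mem _ fun x hx =>
        Geo.sub_mono (star_subset_tgt h hx) (Geo.Ext_mem x F)) _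
    · exact zero_mem _
  · have h := (mem_filter.1 hk).2
    exact Geo.sub_mono (star_subset_tgt h.1 h.2.1) (Geo.bE_mem k)

theorem noF_xtr (j ℓ ℓ' : ℕ) (U : Finset g.P) (F : g.E) : g.noF (g.xtr j ℓ ℓ' U F) = 0 := by
  unfold Geo.xtr
  split_ifs <;> simp only [map_add, map_sum, map_smul, map_zero, Geo.noF_bE, Geo.noF_Ext,
    smul_zero, sum_const_zero, add_zero]

theorem noB_xtr (j ℓ ℓ' : ℕ) (U : Finset g.P) {F : g.E} (h : g.noB F = 0) :
    g.noB (g.xtr j ℓ ℓ' U F) = 0 := by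
  unfold Geo.xtr
  split_ifs <;> simp only [map_add, map_sum, map_smul, map_zero, Geo.noB_bE, Ext_of_noB h,
    smul_zero, sum_const_zero, add_zero]

theorem xtr_zero (j ℓ ℓ' : ℕ) (U : Finset g.P) : g.xtr j ℓ ℓ' U 0 = 0 := by
  rw [Geo.xtr, sum_eq_zero fun x _ => Ext_zero x, smul_zero, ite_self,
    sum_eq_zero fun k _ => by rw [zt_zero, zero_smul], add_zero]

theorem noB_car {s : g.St} (hf : g.Free s) (X : Finset g.P) : g.noB (s.car X) = 0 := by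
  rw [Geo.St.car, sum_eq_zero fun x _ => hf.2 x, zero_add, map_sum]
  exact sum_eq_zero fun k _ => by rw [map_smul, Geo.noB_bE, smul_zero]

theorem noB_Cl (C : Matrix (Tor g.M × Fin 4) (Tor g.M × Fin 4) ℝ) (hC : Cᵀ = -C)
    (H : Finset g.P → g.E) (U : Finset g.P) :
    g.noB (Cl (evG (g.exM C)) H U) = Cl (evG (g.exM C)) (fun X => g.noB (H X)) U :=
  (Cl_map _ g.noB Geo.noB_one Geo.noB_mul g.noB Geo.noB_one Geo.noB_mul
    (fun F => (Geo.noB_evG C hC F).symm) H U).symm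

end R3W

namespace Geo

open R3W

variable {g : Geo}

theorem Wf.H_empty {s : g.St} (hs : g.Wf s) : s.H ∅ = 0 := by
  rw [St.H, hs.K0, car_empty, add_zero]

theorem Wf.car_mem {s : g.St} (hs : g.Wf s) (X : Finset g.P) : s.car X ∈ g.sub X :=
  add_mem (Subalgebra.sum_mem _ fun x hx => (mem_filter.1 hx).2 ▸ hs.vmem x)
    (Subalgebra.sum_mem _ fun k hk => Subalgebra.smul_mem _ ((mem_filter.1 hk).2 ▸ bE_mem k) _)

theorem Wf.H_mem {s : g.St} (hs : g.Wf s) (X : Finset g.P) : s.H X ∈ g.sub X :=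
  add_mem (hs.Kmem X) (hs.car_mem X)

theorem Wf.noF_car {s : g.St} (hs : g.Wf s) (X : Finset g.P) : g.noF (s.car X) = 0 := by
  rw [St.car, map_add, map_sum, map_sum, sum_eq_zero fun x _ => hs.vnoF x,
    sum_eq_zero fun k _ => by rw [map_smul, noF_bE, smul_zero], add_zero]

theorem Wf.Lin_car {s : g.St} (hs : g.Wf s) {C : Matrix (Tor g.M × Fin 4) (Tor g.M × Fin 4) ℝ}
    (hC : Cᵀ = -C) (X : Finset g.P) : g.Lin C (s.car X) = s.car X := by
  have h1 : ∀ x, evG (g.exM C) (s.v x) - g.noF (evG (g.exM C) (s.v x)) = s.v x := fun x => by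
    obtain ⟨c, h⟩ := hs.vquad x C hC
    rw [h, map_add, hs.vnoF, map_smul, noF_one, zero_add, add_sub_cancel_right]
  have h2 : ∀ k, evG (g.exM C) (g.bE k) - g.noF (evG (g.exM C) (g.bE k)) = g.bE k := fun k => by
    obtain ⟨c, h⟩ := (edge_bil (g.src k).y (g.src k).dir).2.2 C hC
    rw [bE, evG_src_mul C hC (noF_bv k), h, noF_mul, noF_bv, map_add, (edge_bil _ _).1, map_smul,
      noF_one, zero_add, mul_add, add_sub_cancel_right]
  simp only [Lin, St.car, map_add, map_sum, map_smul]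
  rw [add_sub_add_comm, ← sum_sub_distrib, ← sum_sub_distrib]
  simp only [h1, ← smul_sub, h2]

theorem Wf.Cl_mem {s : g.St} (hs : g.Wf s) {C : Matrix (Tor g.M × Fin 4) (Tor g.M × Fin 4) ℝ}
    (hC : Cᵀ = -C) (U : Finset g.P) : Cl (evG (g.exM C)) s.H U ∈ g.sub U :=
  Cl_mem_sub _ g.sub g.sub (fun _ _ => sub_mono) (fun _ _ => sub_mono)
    (fun _ _ h => evG_mem C hC h) fun X _ => hs.H_mem X

theorem Wf.rem_mem {s : g.St} (hs : g.Wf s) (ℓ ℓ' : ℕ) (U : Finset g.P) :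
    g.rem ℓ ℓ' s U ∈ g.sub U ∧ g.noF (g.rem ℓ ℓ' s U) = 0 :=
  ⟨sub_mem (sub_mem (hs.Cl_mem (cov_anti ℓ ℓ') U) (noF_mem (hs.Cl_mem (cov_anti ℓ ℓ') U)))
    (hs.car_mem U), by rw [rem, map_sub, map_sub, noF_noF, hs.noF_car, sub_self, sub_zero]⟩

theorem Wf.step {s : g.St} (hs : g.Wf s) (j ℓ ℓ' : ℕ) (d : ℝ × ℝ) :
    g.Wf (g.step j ℓ ℓ' d s) := by
  have hv : ∀ x, (g.step j ℓ ℓ' d s).v x ∈ bil g := fun x =>
    add_mem (add_mem (add_mem (v_bil hs x) (Ext_bil _ _)) (Submodule.smul_mem _ _ (O1_bil x)))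
      (Submodule.smul_mem _ _ (O2_bil x))
  refine ⟨sum_eq_zero fun U hU => ?_, fun X => Subalgebra.sum_mem _ fun U hU => ?_, fun X => ?_,
    fun x => ?_, fun x => (hv x).1, fun x => (hv x).2.1, fun x => (hv x).2.2⟩
  · obtain rfl : U = ∅ := subset_empty.1 ((mem_filter.1 hU).2 ▸ subset_tgt ℓ U)
    have h : g.intg ℓ ℓ' s ∅ = 0 := Cl_eq_zero _ (RN.evG_one _) fun X hX => by
      rw [subset_empty.1 hX, hs.H_empty]
    rw [rem, h, map_zero, car_empty, sub_zero, sub_zero, xtr_zero, sub_zero]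
  · rw [← (mem_filter.1 hU).2]
    exact sub_mem (sub_mono (subset_tgt ℓ U) (hs.rem_mem ℓ ℓ' U).1) (xtr_mem j ℓ ℓ' U _)
  · simp only [Geo.step, map_sum]
    exact sum_eq_zero fun U _ => by rw [map_sub, (hs.rem_mem ℓ ℓ' U).2, noF_xtr, sub_zero]
  · exact add_mem (add_mem (add_mem (hs.vmem x) (Ext_mem x _))
      (Subalgebra.smul_mem _ (O1_mem x) _)) (Subalgebra.smul_mem _ (O2_mem x) _)

theorem wf_srcSt (z : g.K → ℝ) : g.Wf (g.srcSt z) ∧ g.Free (g.srcSt z) :=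
  ⟨⟨rfl, fun _ => zero_mem _, fun _ => map_zero _, fun _ => zero_mem _, fun _ => map_zero _,
    fun _ => map_zero _, fun _ => (bil g).zero_mem.2.2⟩, fun _ => map_zero _, fun _ => rfl⟩

theorem Free.Cl {s : g.St} (hs : g.Wf s) (hf : g.Free s)
    {C : Matrix (Tor g.M × Fin 4) (Tor g.M × Fin 4) ℝ} (hC : Cᵀ = -C) (U : Finset g.P) :
    g.noB (Cl (evG (g.exM C)) s.H U) = 0 := by
  have _ := hs
  rw [noB_Cl C hC]
  exact Cl_eq_zero _ (RN.evG_one _) fun X _ => by rw [St.H, map_add, hf.1, noB_car hf, add_zero]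

theorem Free.noB_rem {s : g.St} (hs : g.Wf s) (hf : g.Free s) (ℓ ℓ' : ℕ) (U : Finset g.P) :
    g.noB (g.rem ℓ ℓ' s U) = 0 := by
  have h : g.noB (g.intg ℓ ℓ' s U) = 0 := Free.Cl hs hf (cov_anti ℓ ℓ') U
  rw [rem, map_sub, map_sub, noB_noF, ← noF_noB, h, map_zero, noB_car hf, sub_zero, sub_zero]

theorem Free.step {s : g.St} (hs : g.Wf s) (hf : g.Free s) (j ℓ ℓ' : ℕ) :
    g.Free (g.step j ℓ ℓ' 0 s) := by
  refine ⟨fun X => ?_, fun x => ?_⟩
  · simp only [Geo.step, map_sum]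
    exact sum_eq_zero fun U _ => by
      rw [map_sub, Free.noB_rem hs hf, noB_xtr j ℓ ℓ' U (Free.noB_rem hs hf ℓ ℓ' U), sub_zero]
  · have h : g.noB (g.out ℓ ℓ' s x) = 0 := by
      rw [out, map_sum]
      exact sum_eq_zero fun U _ => by rw [map_smul, Free.noB_rem hs hf, smul_zero]
    simp only [Geo.step, hf.2, Ext_of_noB h, Prod.fst_zero, Prod.snd_zero, zero_smul, add_zero]

theorem Cl_zero (C : Matrix (Tor g.M × Fin 4) (Tor g.M × Fin 4) ℝ) (U : Finset g.P) :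
    Cl (evG (g.exM C)) (g.srcSt 0).H U = 0 :=
  Cl_eq_zero _ (RN.evG_one _) fun X _ => by simp [St.H, St.car, srcSt]

theorem step_zero (j ℓ ℓ' : ℕ) : g.step j ℓ ℓ' 0 (g.srcSt 0) = g.srcSt 0 := by
  have h : ∀ U, g.rem ℓ ℓ' (g.srcSt 0) U = 0 := fun U => by
    rw [rem, intg, Cl_zero, map_zero]
    simp [St.car, srcSt]
  have h' : ∀ x, g.out ℓ ℓ' (g.srcSt 0) x = 0 := fun x =>
    sum_eq_zero fun U _ => by rw [h, smul_zero]
  simp only [Geo.step, h, h', xtr_zero, Ext_zero, zt_zero, sub_zero, sum_const_zero,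
    Prod.fst_zero, Prod.snd_zero, zero_smul, add_zero]
  rfl

end Geo

end Vale.Agent.P144Z
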